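import Vale.Agent.P321.Final

namespace Vale.Agent.Results.P321.A_superpoly

open Vale.Agent.P321 Filter

theorem result : ∃ c : ℝ, 0 < c ∧ ∀ q : ℝ, 0 < q → q < 1 →
    (∀ n : ℕ, (Suffices q n).Nonempty) ∧
    (∃ n₀ : ℕ, ∀ n : ℕ, n₀ ≤ n → (n : ℝ) ^ (c * Real.log (Real.log n)) ≤ (T q n : ℝ)) ∧
    (∀ (C : ℝ) (d : ℕ), ∃ n₀ : ℕ, ∀ n : ℕ, n₀ ≤ n → C * (n : ℝ) ^ d < (T q n : ℝ)) := by
  refine ⟨1 / 10 ^ 6, by norm_num, fun q q0 q1 => ?_⟩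
  have hne := suffices_nonempty q0.le q1
  obtain ⟨n₀, h⟩ := lower q0 q1
  have h' := fun n hn => h n hn _ (Nat.sInf_mem (hne n))
  refine ⟨hne, ⟨n₀, h'⟩, fun C d => ?_⟩
  have t1 : Tendsto (fun n : ℕ => (1 / 10 ^ 6 : ℝ) * Real.log (Real.log n)) atTop atTop :=
    ((Real.tendsto_log_atTop.comp Real.tendsto_log_atTop).comp
      tendsto_natCast_atTop_atTop).const_mul_atTop (by norm_num)
  have t2 : Tendsto (fun n : ℕ => (n : ℝ)) atTop atTop := tendsto_natCast_atTop_atTop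
  obtain ⟨n₁, h1⟩ := eventually_atTop.1 (((t1.eventually_ge_atTop ((d + 1 : ℕ) : ℝ)).and
    (t2.eventually_gt_atTop C)).and ((t2.eventually_ge_atTop 1).and (eventually_ge_atTop n₀)))
  refine ⟨n₁, fun n hn => ?_⟩
  obtain ⟨⟨a1, a2⟩, a3, a4⟩ := h1 n hn
  refine lt_of_lt_of_le ?_ ((Real.rpow_le_rpow_of_exponent_le a3 a1).trans (h' n a4))
  rw [Real.rpow_natCast, pow_succ']
  exact mul_lt_mul_of_pos_right a2 (by positivity)

end Vale.Agent.Results.P321.A_superpoly
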